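import Crest.Agent.X262.Geo.Val
import Crest.Agent.X262.Ends.Rees
import Crest.Agent.R003.Kr576
import Crest.Agent.R273.FG_259

/-!
# Row 262, road B, ENDS (helper56): a Rees divisor with generic direction

* `rees_div'` : for algebraically independent `G : σ → L` with `dim L = |σ|`, polynomials `s` not all
  zero and a prime `P₀ ∋ s`, there is a divisorial valuation `W` of `L` with centre `P`,
  `(s) ≤ P ≤ P₀`, whose residue field is algebraic over the field generated by the residues of `G`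
  and the direction of `s`;
* `rees_div`  : the same for `G : σ → K₀` and a finite extension `θ : K₀ → L`.
-/

set_option autoImplicit false
set_option linter.unusedSectionVars false
set_option linter.style.haveILetI false

noncomputable section

namespace Crest.Agent.X262.Ex56

open Crest.Agent.X277 Crest.Agent.X277.BD Crest.Agent.X277.Pst Crest.Agent.X277.BD.Cyc
open Crest.Agent.X262.Geo MvPolynomial IsLocalRing
open Crest.Agent.R276.DivVal_858 (ResInd)

theorem card_le_dim' {E ι : Type} [Field E] [Algebra ℂ E] [Algebra.EssFiniteType ℂ E] [Fintype ι]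
    (F : IntermediateField ℂ E) {z : ι → E} (h : AlgebraicIndependent ℂ z) (hz : ∀ i, z i ∈ F) :
    Fintype.card ι ≤ dim ℂ F := by
  haveI : Algebra.EssFiniteType ℂ F := R273.FG_259.essFiniteType_of_le F
  have h0 : AlgebraicIndependent ℂ fun i => (⟨z i, hz i⟩ : F) :=
    AlgebraicIndependent.of_comp F.val h
  have h1 := h0.cardinalMk_le_trdeg
  rw [trdeg_eq_dim, Cardinal.mk_fintype] at h1
  exact_mod_cast h1

/-- the span of a family which contains `1` lies in the field of quotients -/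
theorem span_le_qf {E ι : Type} [Field E] [Algebra ℂ E] {u : ι → E}
    (h1 : (1 : E) ∈ Submodule.span ℂ (Set.range u)) :
    u ≠ 0 ∧ ∀ z ∈ Submodule.span ℂ (Set.range u), z ∈ qf ℂ u := by
  have h0 : u ≠ 0 := by
    rintro rfl
    have : Submodule.span ℂ (Set.range (0 : ι → E)) = ⊥ :=
      Submodule.span_eq_bot.2 (by rintro _ ⟨i, rfl⟩; rfl)
    rw [this, Submodule.mem_bot] at h1
    exact one_ne_zero h1
  obtain ⟨x, hx⟩ := Function.ne_iff.1 h0
  have h2 : ∀ z ∈ Submodule.span ℂ (Set.range u), z / u x ∈ qf ℂ u := by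
    intro z hz
    induction hz using Submodule.span_induction with
    | mem _ h => obtain ⟨i, rfl⟩ := h; exact div_mem_qf u x i
    | zero => rw [zero_div]; exact zero_mem _
    | add a b _ _ ha hb => rw [add_div]; exact add_mem ha hb
    | smul c a _ ha => rw [smul_div_assoc]; exact (qf ℂ u).smul_mem ha
  refine ⟨h0, fun z hz => ?_⟩
  have h3 := div_mem (h2 z hz) (h2 1 h1)
  rwa [div_div_div_cancel_right₀ hx, div_one] at h3

theorem rees_div' {σ ι L : Type} [Fintype σ] [Fintype ι] [Field L] [Algebra ℂ L]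
    [Algebra.EssFiniteType ℂ L] (G : σ → L) (hG : AlgebraicIndependent ℂ G)
    (hL : dim ℂ L = Fintype.card σ) (s : ι → MvPolynomial σ ℂ) (hs : ∃ x, s x ≠ 0)
    (P₀ : Ideal (MvPolynomial σ ℂ)) [P₀.IsPrime] (h₀ : ∀ x, s x ∈ P₀) :
    ∃ (W : RZ ℂ L) (τ : L) (u : ι → Rf W), Dvs W ∧ (∀ i, G i ∈ W.1) ∧
      (∀ a, aeval (fun i => (plV W).r (G i)) a = 0 → a ∈ P₀) ∧
      (∀ x, aeval (fun i => (plV W).r (G i)) (s x) = 0) ∧
      (∀ x, τ * aeval G (s x) ∈ W.1) ∧ (∀ x, u x = (plV W).r (τ * aeval G (s x))) ∧ u ≠ 0 ∧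
      ∀ F : IntermediateField ℂ (Rf W), (∀ i, (plV W).r (G i) ∈ F) → qf ℂ u ≤ F →
        dim ℂ (Rf W) ≤ dim ℂ F := by
  classical
  have hI : Ideal.span (Set.range s) ≤ P₀ := Ideal.span_le.2 (by rintro _ ⟨x, rfl⟩; exact h₀ x)
  obtain ⟨P, hP, hPP⟩ := Ideal.exists_minimalPrimes_le hI
  haveI : P.IsPrime := hP.1.1
  have hsP : ∀ x, s x ∈ P := fun x => hP.1.2 (Ideal.subset_span ⟨x, rfl⟩)
  let φ : MvPolynomial σ ℂ →ₐ[ℂ] L := aeval G
  have hφ : Function.Injective φ := hG
  let O := Localization.AtPrime P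
  have hu : ∀ y : P.primeCompl, IsUnit ((φ : MvPolynomial σ ℂ →+* L) y) := fun y =>
    IsUnit.mk0 _ fun h => y.2 (by
      rw [(map_eq_zero_iff φ hφ).1 h]
      exact P.zero_mem)
  letI : Algebra O L := (IsLocalization.lift (S := O) hu).toAlgebra
  have hA : ∀ a, algebraMap O L (algebraMap _ O a) = φ a := fun a => IsLocalization.lift_eq hu a
  haveI : IsScalarTower ℂ O L := IsScalarTower.of_algebraMap_eq fun c => by
    rw [IsScalarTower.algebraMap_apply ℂ (MvPolynomial σ ℂ) O, hA, AlgHom.commutes]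
  have hinj : Function.Injective (algebraMap O L) := by
    rw [injective_iff_map_eq_zero]
    intro z hz
    obtain ⟨⟨a, y⟩, rfl⟩ := IsLocalization.mk'_surjective P.primeCompl z
    have h1 := (IsLocalization.lift_mk'_spec hu a 0 y).1 hz
    rw [mul_zero] at h1
    rw [(map_eq_zero_iff φ hφ).1 h1]
    exact IsLocalization.mk'_zero y
  have hmx : ∀ a, algebraMap _ O a ∈ maximalIdeal O ↔ a ∈ P :=
    IsLocalization.AtPrime.to_map_mem_maximal_iff O P
  obtain ⟨x₀, hx₀⟩ := hs
  have hφ0 : φ (s x₀) ≠ 0 := fun h => hx₀ ((map_eq_zero_iff φ hφ).1 h)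
  obtain ⟨l, t, V, h1, h2, h3, h4, h5, h6, h7⟩ := Ends.rees (k := ℂ) (O := O) (K := L) hinj
    (s := fun x => algebraMap _ O (s x))
    (fun p hp h => by
      have e1 : p.under (MvPolynomial σ ℂ) ≤ P := fun a ha =>
        (hmx a).1 (IsLocalRing.le_maximalIdeal hp.ne_top ha)
      have e2 : P ≤ p.under (MvPolynomial σ ℂ) :=
        hP.2 ⟨inferInstance, Ideal.span_le.2 (by rintro _ ⟨x, rfl⟩; exact h x)⟩ e1
      refine le_antisymm (IsLocalRing.le_maximalIdeal hp.ne_top) ?_
      rw [← Localization.AtPrime.map_eq_maximalIdeal]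
      exact Ideal.map_le_iff_le_comap.2 e2)
    (fun x => (hmx _).2 (hsP x))
    (fun h => hφ0 (by
      have e := (hmx _).2 (hsP x₀)
      rw [h, Ideal.mem_bot] at e
      rw [← hA, e, map_zero]))
  let W : RZ ℂ L := ⟨V, fun c => by rw [IsScalarTower.algebraMap_apply ℂ O L]; exact h4 _⟩
  have hφV : ∀ a, φ a ∈ V := fun a => hA a ▸ h4 _
  have hGV : ∀ i, G i ∈ W.1 := fun i => by simpa [φ] using hφV (X i)
  have hc : ∀ a, V.valuation (φ a) < 1 ↔ a ∈ P := fun a => by
    have e := h7 (C (algebraMap _ O a))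
    rw [aeval_C, hA] at e
    rw [e, ← hmx]
    refine ⟨fun h => by simpa using h 0, fun h n => ?_⟩
    rw [coeff_C]
    split_ifs
    exacts [h, zero_mem _]
  have hr : ∀ a, aeval (fun i => (plV W).r (G i)) a = 0 ↔ a ∈ P := fun a => by
    rw [← (r_aeval (lnr_plV W) hGV a).2, Pl.r_eq_zero (r_aeval (lnr_plV W) hGV a).1]
    exact hc a
  let τ : L := (algebraMap O L (t 0))⁻¹
  have hp : 0 < V.valuation (algebraMap O L (t 0)) := by
    rw [zero_lt_iff]; exact (map_ne_zero _).2 h3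
  have hτ : ∀ y : L, V.valuation y ≤ V.valuation (algebraMap O L (t 0)) → τ * y ∈ V := fun y hy => by
    rw [← V.valuation_le_one_iff, map_mul, map_inv₀, inv_mul_le_one₀ hp]
    exact hy
  have hsV : ∀ x, τ * φ (s x) ∈ W.1 := fun x => hτ _ (hA (s x) ▸ h5 x)
  let u : ι → Rf W := fun x => (plV W).r (τ * φ (s x))
  have hsp : ∀ a ∈ Submodule.span ℂ (Set.range fun x => algebraMap _ O (s x)),
      τ * algebraMap O L a ∈ W.1 ∧
        (plV W).r (τ * algebraMap O L a) ∈ Submodule.span ℂ (Set.range u) := by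
    intro a ha
    induction ha using Submodule.span_induction with
    | mem _ h =>
      obtain ⟨x, rfl⟩ := h
      rw [hA]
      exact ⟨hsV x, Submodule.subset_span ⟨x, rfl⟩⟩
    | zero => rw [map_zero, mul_zero, Pl.r_zero]; exact ⟨zero_mem _, zero_mem _⟩
    | add a b _ _ ha hb =>
      rw [map_add, mul_add, Pl.r_add (p := plV W) ha.1 hb.1]
      exact ⟨add_mem ha.1 hb.1, add_mem ha.2 hb.2⟩
    | smul c a _ ha =>
      rw [Algebra.smul_def, map_mul, ← IsScalarTower.algebraMap_apply, mul_left_comm,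
        Pl.r_mul (p := plV W) (W.2 c) ha.1, lnr_plV W c, ← Algebra.smul_def]
      exact ⟨by rw [Algebra.smul_def]; exact mul_mem (W.2 c) ha.1, Submodule.smul_mem _ c ha.2⟩
  have h11 : (1 : Rf W) ∈ Submodule.span ℂ (Set.range u) := by
    have e := (hsp _ (h2 0)).2
    rwa [inv_mul_cancel₀ h3, Pl.r_one] at e
  obtain ⟨hu0, hqf⟩ := span_le_qf h11
  obtain ⟨ι', _, j, hj, hcard⟩ := R003.card_le_height_add ℂ σ P
  letI : Fintype ι' := Fintype.ofFinite ι'
  let g : Fin l → L := fun m => algebraMap O L (t m.succ) / algebraMap O L (t 0)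
  let f : ι' → O := fun i => algebraMap _ O (X (j i) : MvPolynomial σ ℂ)
  let z : Fin l ⊕ ι' → L := Sum.elim g (algebraMap O L ∘ f)
  have hg : ∀ m, g m = τ * algebraMap O L (t m.succ) := fun m => by
    rw [mul_comm]; exact div_eq_mul_inv _ _
  have hf : ∀ i, algebraMap O L (f i) = G (j i) := fun i => by simp [f, hA, φ]
  have hzV : ∀ i, z i ∈ V := by
    rintro (m | i)
    · change g m ∈ V
      rw [hg m]
      exact (hsp _ (h2 m.succ)).1
    · exact h4 _
  have hz : ResInd ℂ V z := by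
    refine ⟨hzV, fun Q hQ => le_antisymm
      ((V.valuation_le_one_iff _).2 (r_aeval (lnr_plV W) hzV Q).1) (not_lt.1 fun h => hQ ?_)⟩
    rw [aeval_sumElim, h7] at h
    have e : (aeval (Sum.elim X (C ∘ f)) Q : MvPolynomial (Fin l) O) =
        MvPolynomial.map ((algebraMap _ O).comp (rename j : _ →ₐ[ℂ] MvPolynomial σ ℂ).toRingHom)
          (sumAlgEquiv ℂ (Fin l) ι' Q) := by
      clear h hQ
      induction Q using MvPolynomial.induction_on with
      | C c =>
        have e1 : sumAlgEquiv ℂ (Fin l) ι' (C c) = C (C c) := (sumAlgEquiv ℂ (Fin l) ι').commutes c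
        rw [e1, map_C, aeval_C, MvPolynomial.algebraMap_apply,
          IsScalarTower.algebraMap_apply ℂ (MvPolynomial σ ℂ) O]
        simp
      | add p q hp hq => simp only [map_add, hp, hq]
      | mul_X p i hp =>
        rw [map_mul, map_mul, map_mul, hp, aeval_X]
        congr 1
        rcases i with m | i
        · have e1 : sumAlgEquiv ℂ (Fin l) ι' (X (Sum.inl m)) = X m := by simp
          rw [e1, map_X, Sum.elim_inl]
        · have e1 : sumAlgEquiv ℂ (Fin l) ι' (X (Sum.inr i)) = C (X i) := by simp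
          rw [e1, map_C, Sum.elim_inr]
          simp [f]
    refine (map_eq_zero_iff _ (sumAlgEquiv ℂ (Fin l) ι').injective).1 ?_
    refine MvPolynomial.ext _ _ fun n => ?_
    have e2 := h n
    rw [e, coeff_map, RingHom.comp_apply, hmx] at e2
    exact hj _ e2
  have hn : dim ℂ L - 1 ≤ Fintype.card (Fin l ⊕ ι') := by
    rw [← IsLocalization.AtPrime.under_maximalIdeal O P, IsLocalization.height_under P.primeCompl,
      Nat.card_eq_fintype_card, Nat.card_eq_fintype_card] at hcard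
    have e : (Fintype.card σ : ℕ∞) ≤ ((l + 1 : ℕ) : ℕ∞) + (Fintype.card ι' : ℕ∞) :=
      hcard.trans (add_le_add_left h1 _)
    have e' : Fintype.card σ ≤ l + 1 + Fintype.card ι' := by exact_mod_cast e
    rw [Fintype.card_sum, Fintype.card_fin]
    omega
  have hD : Dvs W := by
    obtain ⟨e⟩ := Function.Embedding.nonempty_of_card_le
      (α := Fin (dim ℂ L - 1)) (β := Fin l ⊕ ι') (by rwa [Fintype.card_fin])
    refine R276.DivVal_858.isDiv_iff.2 ⟨W.2, fun h => ?_, z ∘ e, hz.comp e e.injective⟩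
    have e1 := (hc _).2 (hsP x₀)
    have e2 : V.valuation (φ (s x₀))⁻¹ ≤ 1 :=
      (V.valuation_le_one_iff _).2 (by rw [show V = ⊤ from h]; trivial)
    rw [map_inv₀, inv_le_one₀ (zero_lt_iff.2 ((map_ne_zero _).2 hφ0))] at e2
    exact absurd e1 (not_lt.2 e2)
  refine ⟨W, τ, u, hD, hGV, fun a ha => hPP ((hr a).1 ha), fun x => (hr _).2 (hsP x), hsV,
    fun _ => rfl, hu0, fun F hF hq => ?_⟩
  haveI := essFT_Rf hD
  have e1 := dim_Rf' hD
  have e2 := card_le_dim' F ((resInd_iff (lnr_plV W) hzV).1 hz) (by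
    rintro (m | i)
    · change (plV W).r (g m) ∈ F
      rw [hg m]
      exact hq (hqf _ (hsp _ (h2 m.succ)).2)
    · change (plV W).r (algebraMap O L (f i)) ∈ F
      rw [hf i]
      exact hF (j i))
  omega

theorem rees_div {σ ι K₀ L : Type} [Fintype σ] [Fintype ι] [Field K₀] [Algebra ℂ K₀]
    [Algebra.EssFiniteType ℂ K₀] [Field L] [Algebra ℂ L] [Algebra.EssFiniteType ℂ L]
    (G : σ → K₀) (hG : AlgebraicIndependent ℂ G) (hK : dim ℂ K₀ = Fintype.card σ)
    (θ : K₀ →ₐ[ℂ] L) (hθ : 0 < deg θ) (s : ι → MvPolynomial σ ℂ) (hs : ∃ x, s x ≠ 0)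
    (P₀ : Ideal (MvPolynomial σ ℂ)) [P₀.IsPrime] (h₀ : ∀ x, s x ∈ P₀) :
    ∃ (W : RZ ℂ L) (τ : L) (u : ι → Rf W), Dvs W ∧ (∀ i, θ (G i) ∈ W.1) ∧
      (∀ a, aeval (fun i => (plV W).r (θ (G i))) a = 0 → a ∈ P₀) ∧
      (∀ x, aeval (fun i => (plV W).r (θ (G i))) (s x) = 0) ∧
      (∀ x, τ * θ (aeval G (s x)) ∈ W.1) ∧ (∀ x, u x = (plV W).r (τ * θ (aeval G (s x)))) ∧
      u ≠ 0 ∧ ∀ F : IntermediateField ℂ (Rf W), (∀ i, (plV W).r (θ (G i)) ∈ F) → qf ℂ u ≤ F →
        dim ℂ (Rf W) ≤ dim ℂ F := by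
  have e : ∀ a, θ (aeval G a) = aeval (fun i => θ (G i)) a := fun a => by
    rw [← AlgHom.comp_apply, comp_aeval]
  simp only [e]
  exact rees_div' (fun i => θ (G i)) (hG.map' θ.injective) (((deg_pos_iff θ).1 hθ).trans hK)
    s hs P₀ h₀

end Crest.Agent.X262.Ex56
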